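import Vale.Agent.N113.Main

/-!
# P113: halting detection by particle trajectories of forced Navier-Stokes flows from rest

Q1 holds for every real viscosity `ν > 0` (in particular for every computable one).
All definitions used in the statement are in `Vale/Agent/N113/Defs.lean`.
-/

theorem Vale.Agent.Results.P113.A0Halting.result :
    ∀ ν : ℝ, 0 < ν → Vale.Agent.N113.Q1 ν :=
  fun ν hν => Vale.Agent.N113.main ν hν
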