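import Vale.Agent.N113R.Main

/-!
# P113: the visits of the particle to the box spell out the run of the machine

With one point, one box and one compiler for all `ν ≥ 0`,
step `k` of the machine is carried out in a time interval `[m k, m k + 1)` with `m k < (k+1)²`,
and the particle meets the box during `[j, j+1)` exactly when `j = m k` and the state at step `k`
is halting.  Hence a first halt at step `n` is seen at a time in `[n, (n+1)²)` and not before, and
the particle returns to the box at arbitrarily late times exactly when the run of `δ` passes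
through the set of halting states infinitely often.
All definitions used in the statement are in `Vale/Agent/N113R/Defs.lean`.
-/

open Set Vale.Agent.N113R in
theorem Vale.Agent.Results.P113.A0Itinerary.result :
    ∃ (a lo hi : Fin 3 → ℚ) (C : Code × List ℕ → Fin 3 → List Term), (∀ i, lo i < hi i) ∧
      ∀ ν : ℝ, 0 ≤ ν → IsCompiler ν C ∧ ∀ (M : TM) (w : List (Fin (M.n + 1))),
        ∃ u p, Solves ν (force ν C M w) u p ∧ (∃ X, Path u a X) ∧ ∀ X, Path u a X →
          (∃ m : ℕ → ℕ, StrictMono m ∧ (∀ k, m k < (k + 1) ^ 2) ∧ ∀ j : ℕ,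
            ((∃ t ∈ Ico (j : ℝ) (j + 1), InBox lo hi (X t)) ↔
              ∃ k, m k = j ∧ M.halt (M.state w k) = true)) ∧
          (∀ n : ℕ, M.halt (M.state w n) = true → (∀ k < n, M.halt (M.state w k) = false) →
            (∀ t ∈ Ico (0 : ℝ) n, ¬ InBox lo hi (X t)) ∧
              ∃ t ∈ Ico (n : ℝ) ((n + 1) ^ 2), InBox lo hi (X t)) ∧
          ((∀ T, ∃ t ≥ T, InBox lo hi (X t)) ↔
            ∀ n, ∃ k ≥ n, M.halt (M.state w k) = true) := by
  have fl : ∀ t : ℝ, 0 ≤ t → t ∈ Ico ((⌊t⌋₊ : ℕ) : ℝ) (⌊t⌋₊ + 1) := fun t ht =>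
    ⟨Nat.floor_le ht, Nat.lt_floor_add_one t⟩
  refine ⟨0, loB, hiB, compileR, loB_lt, fun ν hν => ⟨isCompiler_compileR ν, fun M w => ?_⟩⟩
  · obtain ⟨u, h1, h2, m, hm, hb, h3⟩ := main_itinerary hν M w
    refine ⟨u, _, h1, h2, fun X hX => ⟨⟨m, hm, hb, h3 X hX⟩, fun n hn hlt => ⟨?_, ?_⟩,
      fun h n => ?_, fun h T => ?_⟩⟩
    · intro t ht hin
      obtain ⟨k, hk, hk'⟩ := (h3 X hX _).1 ⟨t, fl t ht.1, hin⟩
      have h4 : ⌊t⌋₊ < n := (Nat.floor_lt ht.1).2 ht.2
      have h5 : k ≤ m k := hm.le_apply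
      rw [hlt k (by omega)] at hk'
      exact Bool.false_ne_true hk'
    · obtain ⟨t, ht, hin⟩ := (h3 X hX (m n)).2 ⟨n, rfl, hn⟩
      have h4 : (n : ℝ) ≤ m n := by exact_mod_cast (hm.le_apply : n ≤ m n)
      have h5 : (m n : ℝ) + 1 ≤ (n + 1) ^ 2 := by exact_mod_cast hb n
      exact ⟨t, ⟨h4.trans ht.1, ht.2.trans_le h5⟩, hin⟩
    · obtain ⟨t, ht, hin⟩ := h (m n)
      have ht0 : 0 ≤ t := (Nat.cast_nonneg _).trans ht
      obtain ⟨k, hk, hk'⟩ := (h3 X hX _).1 ⟨t, fl t ht0, hin⟩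
      exact ⟨k, hm.le_iff_le.1 (hk ▸ Nat.le_floor ht), hk'⟩
    · obtain ⟨k, hk, hk'⟩ := h ⌈T⌉₊
      obtain ⟨t, ht, hin⟩ := (h3 X hX (m k)).2 ⟨k, rfl, hk'⟩
      have h4 : ((⌈T⌉₊ : ℕ) : ℝ) ≤ m k := by exact_mod_cast hk.trans hm.le_apply
      exact ⟨t, (Nat.le_ceil T).trans (h4.trans ht.1), hin⟩
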