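import Vale.Agent.N113P.Slow

/-!
# P113: halting detection by forced Navier-Stokes flows: all dimensions `d ≥ 2`, small forces
-/

namespace Vale.Agent.Results.P113.A0Laminar

open Vale.Agent.N113P

theorem result :
    (∀ d : ℕ, 2 ≤ d → ∀ ν : ℝ, 0 ≤ ν →
      ∃ (a lo hi : Fin d → ℚ) (C : TM × List ℕ → Fin d → List (Term d)),
        (∀ i, lo i < hi i) ∧ Compiler ν C ∧
          ∀ M w, ∃ u, Detects ν (force ν (C (M, w))) u a lo hi (M.Halts w)) ∧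
    ∀ ν : ℝ, 0 < ν → ∀ ε : ℝ, 0 < ε → ∀ k : ℕ,
      ∃ (a lo hi : Fin 3 → ℚ) (C : TM × List ℕ → Fin 3 → List (Term 3)),
        (∀ i, lo i < hi i) ∧ Compiler ν C ∧ ∀ M w, ∃ u,
          Detects ν (force ν (C (M, w))) u a lo hi (M.Halts w) ∧
          (∀ j ≤ k, ∀ z, ‖iteratedFDeriv ℝ j (force ν (C (M, w))).uncurry z‖ ≤ ε) ∧
          ∀ T v q, Solves ν (force ν (C (M, w))) T v q → ∫ x in cube 3, v 0 x = 0 →
            ∀ t ∈ Set.Icc 0 T, ∫ x in cube 3, ‖v t x - u t x‖ ^ 2 ≤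
              Real.exp (-ν * t) * ∫ x in cube 3, ‖v 0 x‖ ^ 2 := by
  refine ⟨fun d hd ν hν => ?_, fun ν hν ε hε k => slow hν hε k⟩
  obtain ⟨n, rfl⟩ := Nat.exists_eq_add_of_le' hd
  exact planar n hν

end Vale.Agent.Results.P113.A0Laminar
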