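import Vale.Agent.N113.StAll

/-!
# P113: one steady force and one steady flow detect halting of every machine

One point, one box and one compiler serve all `ν ≥ 0`; the
periodic part of the force is one list `K` of time independent terms, the same for all machines
and inputs; after time `1` the force is the sum of `K` and the velocity is one steady field `V`.
All definitions used in the statement are in `Vale/Agent/N113/Defs.lean`.
-/

open Set Vale.Agent.N113 in
theorem Vale.Agent.Results.P113.A0Steady.result :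
    ∃ (a lo hi : Fin 3 → ℚ) (C : MachineCode × List ℕ → Fin 3 → List Term)
      (K : Fin 3 → List Term) (V : Fin 3 → T3 → ℝ)
      (u : (M : Machine) → List (Fin M.nG) → Fin 3 → ℝ → T3 → ℝ),
      (∀ i, lo i < hi i ∧ hi i < lo i + 1) ∧ (∀ ν, IsForceCompiler ν C) ∧
      (∀ i, ∀ τ ∈ K i, τ.2.1 = ([], [])) ∧
      (∀ (M : Machine) (w : List (Fin M.nG)),
        (∀ i, (C (inputCode M w) i).filter Term.periodic = K i) ∧
        (∀ i, SmoothOnHalf (u M w i)) ∧ (∀ i t, 1 ≤ t → u M w i t = V i) ∧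
        (∀ ν : ℝ, 0 ≤ ν → (∀ i t, 1 ≤ t → force ν C M w i t = sumTerms ν (K i) 0) ∧
          ∀ T, 0 < T → IsClassicalOn ν (force ν C M w) T (u M w) (fun _ _ => 0) ∧
            ∀ v q, IsClassicalOn ν (force ν C M w) T v q →
              ∀ t ∈ Icc 0 T, ∀ x, (∀ i, v i t x = u M w i t x) ∧ q t x = 0) ∧
        (∃ X, IsTrajectory (u M w) (fun i => (a i : ℝ)) X) ∧
        ∀ X, IsTrajectory (u M w) (fun i => (a i : ℝ)) X →
          ((∃ t, 0 ≤ t ∧ proj (X t) ∈ boxImage lo hi) ↔ M.HaltsOn w)) ∧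
      ¬ ∃ D : MachineCode × List ℕ → Bool, Computable D ∧
        ∀ (M : Machine) (w : List (Fin M.nG)), (D (inputCode M w) = true ↔
          ∃ X t, IsTrajectory (u M w) (fun i => (a i : ℝ)) X ∧ 0 ≤ t ∧
            proj (X t) ∈ boxImage lo hi) := by
  obtain ⟨a, lo, hi, C, K, V, u, h1, h2, h3, h4⟩ := St.steady_universal
  refine ⟨a, lo, hi, C, K, V, u, h1, h2, h3, h4,
    fun ⟨D, hD, h⟩ => Univ.undec ⟨D, hD, fun M w => ?_⟩⟩
  obtain ⟨-, -, -, -, ⟨X, hX⟩, k⟩ := h4 M w
  rw [h M w]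
  exact ⟨fun ⟨Y, t, hY, ht⟩ => (k Y hY).1 ⟨t, ht⟩,
    fun hh => let ⟨t, ht⟩ := (k X hX).2 hh; ⟨X, t, hX, ht⟩⟩
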